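import Vale.Agent.P106.U.H459.C1Props

/-!
# P106 / U / H996 : `PE1` (label `B0` of level `0`)

For `t < 1` the label is the slab `B0`, for `t = 1` (time origin `1`) it is the slab in the coordinates of the time `1`: `shf B τ`
is the box `B` with the time origin moved to `τ`, exact formulas `shf_g0`, `shf_g1`, `shf_zz`.
-/

set_option autoImplicit false

namespace Vale.Agent.P106.U.C1.H996

open Finset Vale.Agent.P127 Vale.Agent.P127.Stk Vale.Agent.P127.U.CellD Vale.Agent.P127.U.Mic Vale.Agent.P106.W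
open Vale.Agent.P106.K (Ry RyOk bl Bin)
open Vale.Agent.P106.U.End7
open Vale.Agent.P122.C2 (fw fn)

/-- the box in the coordinates of the time `τ` -/
noncomputable def shf (B : Cbx) (τ : ℝ) : Cbx :=
  ⟨B.θ, B.u1, B.u2, B.κ + 2 * B.α * τ, B.α, fun k => B.p k + τ * B.v k, B.v, B.ω - τ * (∑ k, B.v k ^ 2) / 2⟩

theorem shf_zz (B : Cbx) (τ : ℝ) (y s : Fin 2 → ℝ) (z : ℝ) :
    (shf B τ).zz (fun k => y k + τ * s k) s (z - τ * (∑ k, s k ^ 2) / 2) =
      B.zz y s z + τ * (∑ k, (s k - B.v k) ^ 2) / 2 := by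
  simp only [shf, Cbx.zz, Fin.sum_univ_two]
  ring

theorem shf_g0 (B : Cbx) (τ : ℝ) (y s : Fin 2 → ℝ) (z : ℝ) :
    (shf B τ).g0 (fun k => y k + τ * s k) s (z - τ * (∑ k, s k ^ 2) / 2) = B.g0 y s z + τ * B.g1 y s z := by
  simp only [shf, Cbx.g0, Cbx.g1, fn, Fin.sum_univ_two, Pi.sub_apply]
  ring

theorem shf_g1 (B : Cbx) (τ : ℝ) (y s : Fin 2 → ℝ) (z : ℝ) :
    (shf B τ).g1 (fun k => y k + τ * s k) s (z - τ * (∑ k, s k ^ 2) / 2) = B.g1 y s z := by
  simp only [shf, Cbx.g1, fn, Fin.sum_univ_two, Pi.sub_apply]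
  ring

theorem bin_iff (c : ℝ) (B : Cbx) (H : ℝ) (l : Ry) : Bin c B H l ↔
    (∀ k, |l.y k - B.p k| ≤ c * B.u2) ∧ (∀ k, |l.s k - B.v k| ≤ c * B.u2) ∧ |B.zz l.y l.s l.z| ≤ c * max (B.u2 ^ 2) H ∧
      |B.g0 l.y l.s l.z| ≤ c * B.u1 ∧ |B.g1 l.y l.s l.z| ≤ c * B.u1 := Iff.rfl

/-- the block of level `0` of a ray of the slab is in the shifted slab -/
theorem bin_shf {c : ℝ} (hc : 100 ≤ c) {B : Cbx} (h2 : B.u2 = 1) (h1 : 0 ≤ B.u1) {l : Ry} {t : ℝ} (ht0 : 0 ≤ t) (ht1 : t ≤ 1)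
    (hin : B.In 0 l.y l.s l.z) : Bin c (shf B (Vale.Agent.P127.U.qa 0 t)) 0 (bl 0 l t) := by
  have hτ : 0 ≤ Vale.Agent.P127.U.qa 0 t ∧ Vale.Agent.P127.U.qa 0 t ≤ 1 := by
    unfold Vale.Agent.P127.U.qa fl1
    simp only [pow_zero, one_mul, div_one]
    constructor
    · exact_mod_cast Int.floor_nonneg.2 ht0
    · exact (Int.floor_le t).trans ht1
  set τ := Vale.Agent.P127.U.qa 0 t with hτd
  obtain ⟨hy, hs, hz, hg0, hg1⟩ := (B.in_iff 0 l.y l.s l.z).1 hin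
  have hbl : bl 0 l t = ⟨fun k => l.y k + τ * l.s k, l.s, l.z - τ * (∑ k, l.s k ^ 2) / 2⟩ := by
    simp [bl, Vale.Agent.P106.K.Ry.pos, ← hτd]
  rw [h2] at hy hs hz
  have hd : ∑ k, (l.s k - B.v k) ^ 2 ≤ 2 := by
    simp only [Fin.sum_univ_two]
    have h0 := abs_le.1 (hs 0)
    have h1 := abs_le.1 (hs 1)
    nlinarith [h0.1, h0.2, h1.1, h1.2]
  have hd0 : 0 ≤ ∑ k, (l.s k - B.v k) ^ 2 := Finset.sum_nonneg fun k _ => sq_nonneg _
  rw [hbl, bin_iff]
  dsimp only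
  rw [shf_zz, shf_g0, shf_g1]
  have hu1 : (shf B τ).u1 = B.u1 := rfl
  have hu2 : (shf B τ).u2 = 1 := h2
  rw [hu1, hu2]
  refine ⟨fun k => ?_, fun k => ?_, ?_, ?_, ?_⟩
  · have e : l.y k + τ * l.s k - (shf B τ).p k = (l.y k - B.p k) + τ * (l.s k - B.v k) := by
      simp only [shf]; ring
    rw [e]
    have a1 := abs_le.1 (hy k)
    have a2 := abs_le.1 (hs k)
    have a3 : |τ * (l.s k - B.v k)| ≤ 1 := by
      rw [abs_mul, abs_of_nonneg hτ.1]
      calc τ * |l.s k - B.v k| ≤ 1 * 1 := mul_le_mul hτ.2 (hs k) (abs_nonneg _) zero_le_one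
        _ = 1 := one_mul _
    calc |(l.y k - B.p k) + τ * (l.s k - B.v k)| ≤ |l.y k - B.p k| + |τ * (l.s k - B.v k)| := abs_add_le _ _
      _ ≤ 1 + 1 := add_le_add (hy k) a3
      _ ≤ c * 1 := by linarith
  · have e : l.s k - (shf B τ).v k = l.s k - B.v k := rfl
    rw [e]
    exact (hs k).trans (by linarith)
  · have hz' : |B.zz l.y l.s l.z| ≤ 1 := by
      refine hz.trans ?_
      norm_num
    calc |B.zz l.y l.s l.z + τ * (∑ k, (l.s k - B.v k) ^ 2) / 2| ≤ |B.zz l.y l.s l.z| + |τ * (∑ k, (l.s k - B.v k) ^ 2) / 2| :=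
          abs_add_le _ _
      _ ≤ 1 + 1 := by
          refine add_le_add hz' ?_
          rw [abs_of_nonneg (by have := hτ.1; positivity)]
          nlinarith [hτ.1, hτ.2]
      _ ≤ c * max (1 ^ 2) 0 := by norm_num; linarith
  · calc |B.g0 l.y l.s l.z + τ * B.g1 l.y l.s l.z| ≤ |B.g0 l.y l.s l.z| + |τ * B.g1 l.y l.s l.z| := abs_add_le _ _
      _ ≤ B.u1 + B.u1 := by
          refine add_le_add hg0 ?_
          rw [abs_mul, abs_of_nonneg hτ.1]
          calc τ * |B.g1 l.y l.s l.z| ≤ 1 * B.u1 := mul_le_mul hτ.2 hg1 (abs_nonneg _) zero_le_one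
            _ = B.u1 := one_mul _
      _ ≤ c * B.u1 := by nlinarith
  · exact hg1.trans (by nlinarith)

theorem pr_idq {Ω : Type} [Fintype Ω] (P : Law Ω) (ω : Ω) : P.pr id ω = P.w ω := by
  classical
  unfold Law.pr
  rw [Finset.sum_filter]
  simp

/-- **[E1]** -/
theorem pE1 : PE1 := by
  refine ⟨Real.log 2, fun p hp Ω _ E P μ hS hL => ?_⟩
  have hu1 : 0 ≤ E.B0.u1 := by rw [hS.u1]; positivity
  have h := hL 0 0 E.q (Nat.zero_le _) (Nat.zero_le _) (by have := hS.hL; omega) Ω inferInstance P id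
    (fun ω => shf E.B0 (Vale.Agent.P127.U.qa 0 (E.t ω))) (fun ω => pr_idq P ω) (fun ω hω => ?_)
  · simp only [id] at h
    have e1 : Stk.hc P E.l (fun _ => ()) ≤ Stk.hc P E.l (fun ω => (shf E.B0 (Vale.Agent.P127.U.qa 0 (E.t ω)), fl1 0 (E.t ω))) +
        Real.log 2 := by
      have a1 := hc_le_add' P E.l (fun ω => (shf E.B0 (Vale.Agent.P127.U.qa 0 (E.t ω)), fl1 0 (E.t ω))) (fun _ => ())
      have a2 : Stk.hc P E.l (fun ω => ((shf E.B0 (Vale.Agent.P127.U.qa 0 (E.t ω)), fl1 0 (E.t ω)), ())) ≤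
          Stk.hc P E.l (fun ω => (shf E.B0 (Vale.Agent.P127.U.qa 0 (E.t ω)), fl1 0 (E.t ω))) :=
        hc_mono_right P E.l fun ω ω' _ _ e => (Prod.ext_iff.1 e).1
      have a3 : Stk.hc P (fun ω => (shf E.B0 (Vale.Agent.P127.U.qa 0 (E.t ω)), fl1 0 (E.t ω))) (fun _ => ()) ≤ Real.log 2 := by
        have b1 : Stk.hc P (fun ω => (shf E.B0 (Vale.Agent.P127.U.qa 0 (E.t ω)), fl1 0 (E.t ω))) (fun _ => ()) ≤
            Stk.hc P (fun ω => fl1 0 (E.t ω)) (fun _ => ()) := by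
          refine hc_mono_left P fun ω ω' _ _ e => ?_
          have e' : fl1 0 (E.t ω) = fl1 0 (E.t ω') := (Prod.ext_iff.1 e).1
          simp only [Vale.Agent.P127.U.qa, e']
        refine b1.trans ?_
        have b2 := hc_le_log P (fun ω => fl1 0 (E.t ω)) (fun _ => ()) 2 (fun ω _ => ⟨{0, 1}, by simp, fun ω' h' _ => ?_⟩)
        · simpa using b2
        · obtain ⟨-, h0, h1⟩ := hS.ok ω' h'
          have c0 : 0 ≤ fl1 0 (E.t ω') := by
            unfold fl1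
            simp only [pow_zero, one_mul]
            exact Int.floor_nonneg.2 h0
          have c1 : fl1 0 (E.t ω') ≤ 1 := by
            unfold fl1
            simp only [pow_zero, one_mul]
            exact_mod_cast (Int.floor_le (E.t ω')).trans h1
          simp only [Finset.mem_insert, Finset.mem_singleton]
          omega
      linarith
    have e2 : mi P E.l (E.Zh E.h) (fun _ => ()) = Stk.hc P E.l (fun _ => ()) - Stk.hc P E.l (E.Zh E.h) := by
      unfold mi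
      rw [hc_congr P (X := E.l) (X' := E.l) (Y := fun ω => (E.Zh E.h ω, ())) (Y' := E.Zh E.h)
        (fun ω ω' _ _ e => (Prod.ext_iff.1 e).1) (fun ω ω' _ _ e => (Prod.ext_iff.1 e).1)
        (fun ω ω' _ _ e => by simpa using e) (fun ω ω' _ _ e => by simpa using e)]
    rw [e2]
    unfold Env.vh at h
    simp only [Nat.cast_zero, mul_zero, zero_add, sub_zero, sub_self, abs_zero, add_zero, zero_mul] at h
    nlinarith [h, e1]
  · obtain ⟨hR, h0, h1⟩ := hS.ok ω hω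
    have hτ : 0 ≤ Vale.Agent.P127.U.qa 0 (E.t ω) ∧ Vale.Agent.P127.U.qa 0 (E.t ω) ≤ 1 := by
      unfold Vale.Agent.P127.U.qa fl1
      simp only [pow_zero, one_mul, div_one]
      constructor
      · exact_mod_cast Int.floor_nonneg.2 h0
      · exact (Int.floor_le _).trans h1
    refine ⟨?_, hS.u1, ?_, ?_, bin_shf hp.c0 hS.u2 hu1 h0 h1 (hS.inn ω hω)⟩
    · change E.B0.u2 = _
      rw [hS.u2]; simp
    · change |E.B0.α| * E.B0.u2 ≤ p.c
      rw [hS.u2, mul_one]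
      exact hS.α8.trans (by have := hp.c0; linarith)
    · change |E.B0.κ + 2 * E.B0.α * _| * E.B0.u2 ≤ p.c
      rw [hS.u2, mul_one]
      have a1 := hS.α8
      have a2 := hS.κ8
      have a3 : |2 * E.B0.α * Vale.Agent.P127.U.qa 0 (E.t ω)| ≤ 1 / 4 := by
        rw [abs_mul, abs_mul, abs_of_nonneg hτ.1, abs_two]
        nlinarith [abs_nonneg E.B0.α, hτ.1, hτ.2]
      calc |E.B0.κ + 2 * E.B0.α * Vale.Agent.P127.U.qa 0 (E.t ω)| ≤ |E.B0.κ| + |2 * E.B0.α * Vale.Agent.P127.U.qa 0 (E.t ω)| :=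
            abs_add_le _ _
        _ ≤ 1 / 8 + 1 / 4 := add_le_add a2 a3
        _ ≤ p.c := by have := hp.c0; linarith

end Vale.Agent.P106.U.C1.H996
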