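import Vale.Agent.P106.U.H611.Props
import Vale.Agent.P127.U.H172.Ends
import Vale.Agent.P127.U.H715.Trn

/-!
# P106 / U / H996 : block [END] of END7, Case A — preparations

* frames are integral with positive determinant (`fr_int`, `fr_det`), rows are not zero, size `fr_bound`;
* words: `wd_len`, `wd_pred`, `wd_ok`, `wd_dg`;
* `gen_shiftZ` : generic translation with integral slopes;
* `base_inj` : digits in base `B`.
-/

set_option autoImplicit false

namespace Vale.Agent.P106.U.EndA.H996

open Finset Vale.Agent.P127 Vale.Agent.P127.Stk Vale.Agent.P127.U.CellD Vale.Agent.P127.U.H715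

variable {d : ℕ}

/-! ### frames -/

theorem fr_int (m p : ℕ) : ∀ s : Sta d, ∃ M : Fin d → Fin d → ℤ, fr m p s = fun i l => (M i l : ℝ)
  | [] => ⟨fun i l => if i = l then 1 else 0, by
      funext i l
      simp only [fr, fr1]
      split_ifs <;> simp⟩
  | (none, _) :: s => by
      obtain ⟨M, hM⟩ := fr_int m p s
      refine ⟨fun i l => 2 ^ p * M i l, ?_⟩
      funext i l
      simp only [fr, upd, hM]
      push_cast
      ring
  | (some (k, q), _) :: s => by
      obtain ⟨M, hM⟩ := fr_int m p s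
      refine ⟨Function.update M k (fun l => ∑ i, (if i = k then 2 ^ m else q i) * M i l), ?_⟩
      funext i l
      simp only [fr, upd, hM]
      by_cases h : i = k
      · subst h
        simp only [Function.update_self]
        push_cast
        rw [Finset.mul_sum]
        refine Finset.sum_congr rfl fun i' _ => ?_
        unfold cv
        split_ifs
        · ring
        · field_simp
      · simp only [Function.update_of_ne h]

theorem fr_det (m p : ℕ) : ∀ s : Sta d, 0 < (Matrix.of (fr m p s)).det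
  | [] => by
      have : (Matrix.of (fr m p ([] : Sta d))) = (1 : Matrix (Fin d) (Fin d) ℝ) := by
        ext i l
        simp only [fr, fr1, Matrix.of_apply, Matrix.one_apply]
      rw [this, Matrix.det_one]
      exact one_pos
  | (none, x) :: s => by
      have ih := fr_det m p s
      have : Matrix.of (fr m p ((none, x) :: s)) = ((2 : ℝ) ^ p) • Matrix.of (fr m p s) := by
        ext i l
        simp only [fr, upd, Matrix.of_apply, Matrix.smul_apply, smul_eq_mul]
      rw [this, Matrix.det_smul]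
      positivity
  | (some (k, q), x) :: s => by
      have ih := fr_det m p s
      have : Matrix.of (fr m p ((some (k, q), x) :: s)) = (Matrix.of (fr m p s)).updateRow k
          (∑ i, ((2 : ℝ) ^ m * cv m k q i) • (Matrix.of (fr m p s)) i) := by
        ext i l
        simp only [fr, upd, Matrix.of_apply]
        by_cases h : i = k
        · subst h
          rw [Matrix.updateRow_self, Function.update_self, Finset.sum_apply, Finset.mul_sum]
          refine Finset.sum_congr rfl fun i' _ => ?_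
          simp only [Pi.smul_apply, smul_eq_mul, Matrix.of_apply]
          ring
        · rw [Matrix.updateRow_ne h, Function.update_of_ne h]
          rfl
      rw [this, Matrix.det_updateRow_sum]
      have : cv m k q k = 1 := by simp [cv]
      rw [this, mul_one, smul_eq_mul]
      positivity

theorem fr_row (m p : ℕ) (s : Sta d) (k : Fin d) : ∃ l, fr m p s k l ≠ 0 := by
  by_contra hcon
  push Not at hcon
  have h := fr_det m p s
  rw [Matrix.det_eq_zero_of_row_eq_zero k (fun l => by simpa using hcon l)] at h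
  exact lt_irrefl _ h

theorem fr_bound (m p : ℕ) (hmp : m ≤ p) : ∀ s : Sta d,
    (∀ x ∈ s, ∀ k q, x.1 = some (k, q) → okc m q) →
    ∀ i l, |fr m p s i l| ≤ (2 : ℝ) ^ ((p + d) * s.length)
  | [] => fun _ i l => by
      simp only [fr, fr1, List.length_nil, mul_zero, pow_zero]
      split_ifs <;> simp
  | (none, x) :: s => fun h i l => by
      have ih := fr_bound m p hmp s (fun y hy => h y (List.mem_cons_of_mem _ hy)) i l
      simp only [fr, upd, List.length_cons]
      rw [abs_mul, abs_of_pos (by positivity : (0 : ℝ) < 2 ^ p)]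
      calc (2 : ℝ) ^ p * |fr m p s i l| ≤ 2 ^ p * 2 ^ ((p + d) * s.length) := by gcongr
        _ = 2 ^ (p + (p + d) * s.length) := by rw [pow_add]
        _ ≤ _ := pow_le_pow_right₀ one_le_two (by nlinarith)
  | (some (k, q), x) :: s => fun h i l => by
      have ih := fr_bound m p hmp s (fun y hy => h y (List.mem_cons_of_mem _ hy))
      have hq : okc m q := h (some (k, q), x) (List.mem_cons_self ..) k q rfl
      simp only [fr, upd, List.length_cons]
      by_cases hik : i = k
      · subst hik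
        rw [Function.update_self, abs_mul, abs_of_pos (by positivity : (0 : ℝ) < 2 ^ m)]
        have h1 : |∑ i', cv m i q i' * fr m p s i' l| ≤ 2 ^ d * 2 ^ ((p + d) * s.length) := by
          refine (Finset.abs_sum_le_sum_abs _ _).trans ?_
          have h2 : ∀ i' ∈ (univ : Finset (Fin d)), |cv m i q i' * fr m p s i' l| ≤
              (2 : ℝ) ^ ((p + d) * s.length) := by
            intro i' _
            rw [abs_mul]
            have h3 : |cv m i q i'| ≤ 1 := by
              unfold cv
              split_ifs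
              · simp
              · rw [abs_div, abs_of_pos (by positivity : (0 : ℝ) < 2 ^ m),
                  div_le_one (by positivity)]
                exact_mod_cast hq i'
            calc |cv m i q i'| * |fr m p s i' l| ≤ 1 * 2 ^ ((p + d) * s.length) := by
                  gcongr
                  exact ih i' l
              _ = _ := one_mul _
          refine (Finset.sum_le_card_nsmul _ _ _ h2).trans ?_
          rw [Finset.card_univ, Fintype.card_fin, nsmul_eq_mul]
          gcongr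
          exact_mod_cast (Nat.lt_two_pow_self (n := d)).le
        calc (2 : ℝ) ^ m * |∑ i', cv m i q i' * fr m p s i' l|
            ≤ 2 ^ p * (2 ^ d * 2 ^ ((p + d) * s.length)) := by
              gcongr
              exact one_le_two
          _ = 2 ^ ((p + d) * (s.length + 1)) := by
              rw [← pow_add, ← pow_add]
              congr 1
              ring
      · rw [Function.update_of_ne hik]
        exact (ih i l).trans (pow_le_pow_right₀ one_le_two (by nlinarith))

/-! ### words -/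

section word

variable {Ω : Type} {m p : ℕ} {Q : Ω → Fin d → ℝ} {w : ℕ → Ω → Sta d}

theorem wd_len (h : IsWd m p Q w) (j : ℕ) (ω : Ω) : (w j ω).length = j := by
  induction j with
  | zero => rw [h.zero]; rfl
  | succ j ih =>
    obtain ⟨c, _, e⟩ := h.succ j ω
    rw [e, List.length_cons, ih]

theorem wd_succ (h : IsWd m p Q w) {j : ℕ} {ω ω' : Ω} (e : w (j + 1) ω' = w (j + 1) ω) :
    w j ω' = w j ω := by
  obtain ⟨c, _, e1⟩ := h.succ j ω
  obtain ⟨c', _, e2⟩ := h.succ j ω'
  rw [e1, e2] at e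
  exact (List.cons.inj e).2

theorem wd_pred (h : IsWd m p Q w) {j j' : ℕ} (hj : j' ≤ j) {ω ω' : Ω} (e : w j ω' = w j ω) :
    w j' ω' = w j' ω := by
  induction j, hj using Nat.le_induction with
  | base => exact e
  | succ n _ ih => exact ih (wd_succ h e)

theorem wd_ok (h : IsWd m p Q w) (j : ℕ) (ω : Ω) :
    ∀ x ∈ w j ω, ∀ k q, x.1 = some (k, q) → okc m q := by
  induction j with
  | zero => rw [h.zero]; intro x hx; simp at hx
  | succ j ih =>
    obtain ⟨c, hc, e⟩ := h.succ j ω
    rw [e]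
    intro x hx k q hkq
    rcases List.mem_cons.1 hx with rfl | hx
    · exact hc k q hkq
    · exact ih x hx k q hkq

theorem wd_dg (h : IsWd m p Q w) {j : ℕ} {ω ω' : Ω} (e : w (j + 1) ω' = w (j + 1) ω) :
    dg (fr m p (w (j + 1) ω')) (Q ω') = dg (fr m p (w (j + 1) ω)) (Q ω) := by
  obtain ⟨c, _, e1⟩ := h.succ j ω
  obtain ⟨c', _, e2⟩ := h.succ j ω'
  rw [e1, e2] at e
  have e3 := (List.cons.inj e).1
  simp only [Prod.mk.injEq] at e3
  rw [e1, e2]
  simp only [fr]
  exact e3.2

end word

/-! ### digits in base `B` -/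

theorem base_inj {B : ℤ} (hB : 0 < B) : ∀ {d : ℕ} (F : Fin d → ℤ), (∀ l, |F l| < B) →
    ∑ l, F l * B ^ (l : ℕ) = 0 → ∀ l, F l = 0
  | 0, _, _, _ => fun l => l.elim0
  | d + 1, F, hF, h => by
      rw [Fin.sum_univ_succ] at h
      simp only [Fin.val_zero, pow_zero, mul_one, Fin.val_succ] at h
      have e : ∑ i : Fin d, F i.succ * B ^ ((i : ℕ) + 1) = B * ∑ i : Fin d, F i.succ * B ^ (i : ℕ) := by
        rw [Finset.mul_sum]
        exact Finset.sum_congr rfl fun i _ => by ring
      rw [e] at h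
      have hdvd : B ∣ F 0 := ⟨-∑ i : Fin d, F i.succ * B ^ (i : ℕ), by linarith⟩
      have h0 : F 0 = 0 := Int.eq_zero_of_abs_lt_dvd hdvd (hF 0)
      rw [h0, zero_add] at h
      have h1 : ∑ i : Fin d, F i.succ * B ^ (i : ℕ) = 0 := by
        rcases mul_eq_zero.1 h with h2 | h2
        · exact absurd h2 hB.ne'
        · exact h2
      have ih := base_inj hB (fun i : Fin d => F i.succ) (fun l => hF _) h1
      intro l
      refine Fin.cases h0 (fun i => ih i) l

/-! ### generic translation with integral slopes -/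

section gen

open MeasureTheory

lemma meas_fractZ (n : ℕ) (x : ℝ) (f : ℤ) :
    Measurable fun ξ : ℝ => Int.fract ((2 : ℝ) ^ n * (x + f * ξ)) :=
  measurable_fract.comp ((measurable_const.add (measurable_id.const_mul _)).const_mul _)

lemma int_fractZ (n : ℕ) (x : ℝ) (f : ℤ) (a b : ℝ) :
    IntervalIntegrable (fun ξ : ℝ => Int.fract ((2 : ℝ) ^ n * (x + f * ξ))) volume a b := by
  refine (intervalIntegrable_const (c := (1 : ℝ))).mono_fun
    (meas_fractZ n x f).aestronglyMeasurable ?_
  filter_upwards with ξ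
  rw [Real.norm_eq_abs, abs_of_nonneg (Int.fract_nonneg _), norm_one]
  exact (Int.fract_lt_one _).le

lemma int_cntZ' (n : ℕ) (x η : ℝ) (f : ℤ) (a b : ℝ) :
    IntervalIntegrable (fun ξ : ℝ => cnt n (x + f * ξ) η) volume a b := by
  have e : (fun ξ : ℝ => cnt n (x + f * ξ) η) = fun ξ : ℝ => (2 : ℝ) ^ n * η -
      (Int.fract ((2 : ℝ) ^ n * ((x + η) + f * ξ)) - Int.fract ((2 : ℝ) ^ n * (x + f * ξ))) :=
    funext fun ξ => cnt_eq n x η (f * ξ)
  rw [e]
  exact intervalIntegrable_const.sub ((int_fractZ n (x + η) f a b).sub (int_fractZ n x f a b))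

lemma cnt_per (n : ℕ) (x η : ℝ) : Function.Periodic (fun ξ : ℝ => cnt n (x + ξ) η) 1 := by
  intro ξ
  simp only
  rw [cnt_eq, cnt_eq]
  have h1 := cnt_periodic n (x + η) ξ
  have h2 := cnt_periodic n x ξ
  simp only at h1 h2
  rw [h1, h2]

/-- the mean of the number of grid points, integral slope -/
lemma int_cntZ (n : ℕ) (x η : ℝ) {f : ℤ} (hf : f ≠ 0) :
    ∫ ξ in (0 : ℝ)..1, cnt n (x + f * ξ) η = (2 : ℝ) ^ n * η := by
  have hf' : (f : ℝ) ≠ 0 := by exact_mod_cast hf
  have h1 := intervalIntegral.integral_comp_mul_left (a := (0 : ℝ)) (b := 1)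
    (fun ξ => cnt n (x + ξ) η) hf'
  rw [h1, mul_zero, mul_one]
  have h2 := (cnt_per n x η).intervalIntegral_add_zsmul_eq f 0 (fun a b => int_cnt' n x η a b)
  have e1 : (0 : ℝ) + f • (1 : ℝ) = f := by simp
  rw [e1, zero_add] at h2
  rw [h2, int_cnt]
  simp only [zsmul_eq_mul, smul_eq_mul]
  field_simp

variable {Ω : Type} [Fintype Ω] {ι : Type*}

/-- **generic translation**, integral slopes -/
theorem gen_shiftZ (P : Law Ω) (s : Finset ι) (n : ι → Ω → ℕ) (z η : ι → Ω → ℝ) (f : ι → Ω → ℤ)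
    (hf : ∀ i ∈ s, ∀ ω, f i ω ≠ 0) :
    ∃ ξ : ℝ, 0 < ξ ∧ ξ ≤ 1 ∧ ∑ i ∈ s, P.ex (fun ω => cnt (n i ω) (z i ω + f i ω * ξ) (η i ω)) ≤
      ∑ i ∈ s, P.ex fun ω => (2 : ℝ) ^ (n i ω) * η i ω := by
  set g : ℝ → ℝ := fun ξ => ∑ i ∈ s, P.ex (fun ω => cnt (n i ω) (z i ω + f i ω * ξ) (η i ω)) with hg
  have hint : ∀ i ω, IntervalIntegrable
      (fun ξ : ℝ => P.w ω * cnt (n i ω) (z i ω + f i ω * ξ) (η i ω)) volume 0 1 :=
    fun i ω => (int_cntZ' _ _ _ _ _ _).const_mul _
  have hsum : ∀ i, IntervalIntegrable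
      (fun ξ : ℝ => ∑ ω, P.w ω * cnt (n i ω) (z i ω + f i ω * ξ) (η i ω)) volume 0 1 := fun i => by
    have h := IntervalIntegrable.sum Finset.univ fun ω (_ : ω ∈ Finset.univ) => hint i ω
    have e : (fun ξ : ℝ => ∑ ω, P.w ω * cnt (n i ω) (z i ω + f i ω * ξ) (η i ω)) =
        ∑ ω, fun ξ : ℝ => P.w ω * cnt (n i ω) (z i ω + f i ω * ξ) (η i ω) := by
      funext ξ
      rw [Finset.sum_apply]
    rw [e]
    exact h
  have h1 : ∫ ξ in (0 : ℝ)..1, g ξ = ∑ i ∈ s, P.ex fun ω => (2 : ℝ) ^ (n i ω) * η i ω := by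
    rw [hg]
    simp only [Law.ex]
    rw [intervalIntegral.integral_finsetSum fun i _ => hsum i]
    refine Finset.sum_congr rfl fun i hi => ?_
    rw [intervalIntegral.integral_finsetSum fun ω _ => hint i ω]
    refine Finset.sum_congr rfl fun ω _ => ?_
    rw [intervalIntegral.integral_const_mul, int_cntZ _ _ _ (hf i hi ω)]
  have hgi : IntervalIntegrable g volume 0 1 := by
    rw [hg]
    simp only [Law.ex]
    have h := IntervalIntegrable.sum s fun i (_ : i ∈ s) => hsum i
    have e : (fun ξ : ℝ => ∑ i ∈ s, ∑ ω, P.w ω * cnt (n i ω) (z i ω + f i ω * ξ) (η i ω)) =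
        ∑ i ∈ s, fun ξ : ℝ => ∑ ω, P.w ω * cnt (n i ω) (z i ω + f i ω * ξ) (η i ω) := by
      funext ξ
      rw [Finset.sum_apply]
    rw [e]
    exact h
  by_contra hc
  push Not at hc
  set c := ∑ i ∈ s, P.ex fun ω => (2 : ℝ) ^ (n i ω) * η i ω with hcdef
  have h2 : ∫ ξ in (0 : ℝ)..1, (g ξ - c) = 0 := by
    rw [intervalIntegral.integral_sub hgi intervalIntegrable_const, h1]
    simp
  have h3 : 0 < ∫ ξ in (0 : ℝ)..1, (g ξ - c) := by
    refine intervalIntegral.intervalIntegral_pos_of_pos_on (hgi.sub intervalIntegrable_const) ?_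
      one_pos
    intro ξ hξ
    have := hc ξ hξ.1 hξ.2.le
    exact sub_pos.2 this
  linarith

/-- probability that some digits change, integral slopes -/
theorem gen_probZ (P : Law Ω) (s : Finset ι) (n : ι → Ω → ℕ) (z η : ι → Ω → ℝ) (f : ι → Ω → ℤ)
    (hf : ∀ i ∈ s, ∀ ω, f i ω ≠ 0) (hη : ∀ i ∈ s, ∀ ω, 0 ≤ η i ω) :
    ∃ ξ : ℝ, 0 < ξ ∧ ξ ≤ 1 ∧
      prE P (fun ω => ∃ i ∈ s, ∃ y : ℝ, z i ω + f i ω * ξ ≤ y ∧ y ≤ z i ω + f i ω * ξ + η i ω ∧
        fl1 (n i ω) y ≠ fl1 (n i ω) (z i ω + f i ω * ξ)) ≤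
      ∑ i ∈ s, P.ex fun ω => (2 : ℝ) ^ (n i ω) * η i ω := by
  classical
  obtain ⟨ξ, h0, h1, h2⟩ := gen_shiftZ P s n z η f hf
  refine ⟨ξ, h0, h1, le_trans ?_ h2⟩
  have e1 : ∑ i ∈ s, P.ex (fun ω => cnt (n i ω) (z i ω + f i ω * ξ) (η i ω)) =
      P.ex (fun ω => ∑ i ∈ s, cnt (n i ω) (z i ω + f i ω * ξ) (η i ω)) := by
    unfold Law.ex
    rw [Finset.sum_comm]
    exact Finset.sum_congr rfl fun ω _ => by rw [Finset.mul_sum]
  rw [e1]
  unfold prE Law.ex
  rw [Finset.sum_filter]
  refine Finset.sum_le_sum fun ω _ => ?_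
  split_ifs with hE
  · obtain ⟨i, hi, y, h3, h4, h5⟩ := hE
    have h6 : 1 ≤ cnt (n i ω) (z i ω + f i ω * ξ) (η i ω) := by
      by_contra hlt
      exact h5 (fl1_eq_of_cnt _ (not_le.1 hlt) h3 h4)
    have h7 : cnt (n i ω) (z i ω + f i ω * ξ) (η i ω) ≤
        ∑ i ∈ s, cnt (n i ω) (z i ω + f i ω * ξ) (η i ω) :=
      Finset.single_le_sum (f := fun i => cnt (n i ω) (z i ω + f i ω * ξ) (η i ω))
        (fun j hj => cnt_nonneg _ _ (hη j hj ω)) hi
    nlinarith [P.nn ω]
  · exact mul_nonneg (P.nn ω) (Finset.sum_nonneg fun j hj => cnt_nonneg _ _ (hη j hj ω))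

end gen

end Vale.Agent.P106.U.EndA.H996
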