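import Vale.Agent.P106.U.H996.EndA

/-!
# P106 / U / H996 : block [END] of END7, Case A

`pEnd : PEnd d` : after a generic translation all cells `J i j` are functions of the end `Zh h`, of the side
variable and of the state (off an event of small probability).
-/

set_option autoImplicit false

namespace Vale.Agent.P106.U.EndA.H996

open Finset Vale.Agent.P127 Vale.Agent.P127.Stk Vale.Agent.P127.U.CellD Vale.Agent.P127.U.H715

variable {d : ℕ}

/-- the integral frame of a state -/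
noncomputable def Mz (m p : ℕ) (s : Sta d) : Fin d → Fin d → ℤ := (fr_int m p s).choose

theorem Mz_eq (m p : ℕ) (s : Sta d) (i l : Fin d) : fr m p s i l = (Mz m p s i l : ℝ) := by
  have h := (fr_int m p s).choose_spec
  rw [h]
  rfl

theorem ap_add (A : Fr d) (x y : Fin d → ℝ) (k : Fin d) :
    ap A (fun l => x l + y l) k = ap A x k + ap A y k := by
  unfold ap
  rw [← Finset.sum_add_distrib]
  exact Finset.sum_congr rfl fun l _ => by ring

theorem ap_sub (A : Fr d) (x y : Fin d → ℝ) (k : Fin d) :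
    ap A x k - ap A y k = ap A (fun l => x l - y l) k := by
  unfold ap
  rw [← Finset.sum_sub_distrib]
  exact Finset.sum_congr rfl fun l _ => by ring

theorem ap_smul (A : Fr d) (c : ℝ) (x : Fin d → ℝ) (k : Fin d) :
    ap A (fun l => c * x l) k = c * ap A x k := by
  unfold ap
  rw [Finset.mul_sum]
  exact Finset.sum_congr rfl fun l _ => by ring

/-- the digits of a position -/
lemma dig {a κ : ℕ} (h : κ ≤ a) (v : ℝ) : ⌊(2 : ℝ) ^ a * v / 2 ^ κ⌋ = fl1 (a - κ) v := by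
  unfold fl1
  congr 1
  rw [← Nat.sub_add_cancel h, pow_add, Nat.add_sub_cancel]
  field_simp

/-- shift by an integer -/
lemma fl1_sub_int (n : ℕ) (x : ℝ) (I : ℤ) : fl1 n (x - I) = fl1 n x - 2 ^ n * I := by
  unfold fl1
  have e : (2 : ℝ) ^ n * (x - I) = (2 : ℝ) ^ n * x - ((2 ^ n * I : ℤ) : ℝ) := by
    push_cast; ring
  rw [e, Int.floor_sub_intCast]

lemma Nb_shift {n : ℕ} {z ε : ℝ} (I : ℤ) (h : Nb n (z - I) ε) : Nb n z ε := by
  obtain ⟨y, h1, h2, h3⟩ := h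
  refine ⟨y + I, by linarith, by linarith, ?_⟩
  intro h4
  apply h3
  have e1 : y = (y + I) - I := by ring
  have e2 : z - I - ε = (z - ε) - I := by ring
  rw [e1, e2, fl1_sub_int, fl1_sub_int, h4]

section main

variable {Ω α : Type} (S : Sy d Ω α)

theorem lt_mono {i n : ℕ} (h : i ≤ n) : S.lt i ≤ S.lt n := by
  unfold Sy.lt
  have := Nat.mul_le_mul_left S.m h
  omega

/-- the end determines the position up to three units -/
theorem close [Fintype Ω] {P : Law Ω} (hN : S.Nrm P) (hmp : S.m ≤ S.p) {n j0 h : ℕ}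
    (hh : S.lt n + (S.p + d) * j0 + d ≤ h) {i j : ℕ} (hi : i ≤ n) (hj : j ≤ j0) {ω ω' : Ω}
    (hω : 0 < P.w ω) (hω' : 0 < P.w ω') (hZ : S.Zh h ω' = S.Zh h ω) (hw : S.w j ω' = S.w j ω) :
    S.T i ω' = S.T i ω ∧ S.F j ω' = S.F j ω ∧
      ∀ k, |ap (S.F j ω') (S.pos (S.lt i) ω') k - ap (S.F j ω) (S.pos (S.lt i) ω) k| ≤
        3 * q2 (S.lt i) := by
  have hli := lt_mono S hi
  unfold Sy.Zh at hZ
  simp only [Prod.mk.injEq] at hZ
  obtain ⟨z1, z2⟩ := hZ
  have hF : S.F j ω' = S.F j ω := by unfold Sy.F; rw [hw]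
  have hT : S.T i ω' = S.T i ω := fl1_fl1 (by omega) z1
  refine ⟨hT, hF, fun k => ?_⟩
  have et : rd h (S.t ω') = rd h (S.t ω) := by unfold rd; rw [z1]
  have et' : rd (S.lt i) (S.t ω') = rd (S.lt i) (S.t ω) := by
    unfold rd
    rw [show fl1 (S.lt i) (S.t ω') = fl1 (S.lt i) (S.t ω) from hT]
  set δ := rd (S.lt i) (S.t ω) - rd h (S.t ω) with hδ
  have hδa : |δ| ≤ q2 (S.lt i) := by
    rw [hδ, abs_sub_comm]
    exact rd_sub (by omega) _
  -- position at the rounded time in terms of the end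
  have e1 : ap (S.F j ω') (S.pos (S.lt i) ω') k - ap (S.F j ω) (S.pos (S.lt i) ω) k =
      ap (S.F j ω) (fun l => S.pos h ω' l - S.pos h ω l) k +
        δ * (ap (S.F j ω) (S.Q ω') k - ap (S.F j ω) (S.Q ω) k) := by
    rw [hF, ap_sub, ap_sub, ← ap_smul, ← ap_add]
    congr 1
    funext l
    unfold Sy.pos
    rw [et, et', hδ]
    ring
  rw [e1]
  -- first term
  have hb := fr_bound S.m S.p hmp (S.w j ω) (wd_ok hN.wd j ω)
  rw [wd_len hN.wd] at hb
  have t1 : |ap (S.F j ω) (fun l => S.pos h ω' l - S.pos h ω l) k| ≤ q2 (S.lt i) := by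
    unfold ap
    refine (Finset.abs_sum_le_sum_abs _ _).trans ?_
    have h2 : ∀ l ∈ (univ : Finset (Fin d)), |S.F j ω k l * (S.pos h ω' l - S.pos h ω l)| ≤
        (2 : ℝ) ^ ((S.p + d) * j) * q2 h := by
      intro l _
      rw [abs_mul]
      have h3 : |S.pos h ω' l - S.pos h ω l| ≤ q2 h := fl1_diff (congrFun z2 l)
      exact mul_le_mul (hb k l) h3 (abs_nonneg _) (by positivity)
    refine (Finset.sum_le_card_nsmul _ _ _ h2).trans ?_
    rw [Finset.card_univ, Fintype.card_fin, nsmul_eq_mul]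
    have h4 : (d : ℝ) ≤ 2 ^ d := by exact_mod_cast (Nat.lt_two_pow_self (n := d)).le
    have h5 : (2 : ℝ) ^ ((S.p + d) * j) ≤ 2 ^ ((S.p + d) * j0) :=
      pow_le_pow_right₀ one_le_two (Nat.mul_le_mul_left _ hj)
    have h6 : q2 h ≤ q2 (d + ((S.p + d) * j0 + S.lt i)) := q2_le (by omega)
    calc (d : ℝ) * ((2 : ℝ) ^ ((S.p + d) * j) * q2 h)
        ≤ 2 ^ d * (2 ^ ((S.p + d) * j0) * q2 (d + ((S.p + d) * j0 + S.lt i))) := by
          have := (q2_pos h).le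
          gcongr
      _ = q2 (S.lt i) := by
          rw [q2_add, q2_add]
          have g1 := q2_mul_pow d
          have g2 := q2_mul_pow ((S.p + d) * j0)
          calc (2 : ℝ) ^ d * (2 ^ ((S.p + d) * j0) * (q2 d * (q2 ((S.p + d) * j0) * q2 (S.lt i))))
              = ((2 : ℝ) ^ d * q2 d) * (2 ^ ((S.p + d) * j0) * q2 ((S.p + d) * j0)) *
                q2 (S.lt i) := by ring
            _ = _ := by rw [g1, g2]; ring
  -- second term
  have t2 : |ap (S.F j ω) (S.Q ω') k - ap (S.F j ω) (S.Q ω) k| ≤ 2 := by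
    rcases Nat.eq_zero_or_pos j with rfl | hj0
    · have e0 : S.F 0 ω = fr1 := by unfold Sy.F; rw [hN.wd.zero]; rfl
      have e2 : ∀ x : Fin d → ℝ, ap (fr1 : Fr d) x k = x k := by
        intro x
        unfold ap fr1
        simp
      rw [e0, e2, e2]
      have q1 := hN.Q1 ω hω k
      have q1' := hN.Q1 ω' hω' k
      refine (abs_sub _ _).trans ?_
      linarith
    · obtain ⟨j', rfl⟩ : ∃ j', j = j' + 1 := ⟨j - 1, by omega⟩
      have e2 := congrFun (wd_dg hN.wd hw) k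
      have e3 : ⌊ap (S.F (j' + 1) ω) (S.Q ω') k⌋ = ⌊ap (S.F (j' + 1) ω) (S.Q ω) k⌋ := by
        rw [← hF]
        rw [← hF] at *
        have e4 : S.F (j' + 1) ω' = fr S.m S.p (S.w (j' + 1) ω') := rfl
        have e5 : fr S.m S.p (S.w (j' + 1) ω) = fr S.m S.p (S.w (j' + 1) ω') := by rw [hw]
        unfold dg at e2
        rw [e5] at e2
        exact e2
      have := Int.abs_sub_lt_one_of_floor_eq_floor e3
      linarith
  have hq := q2_pos (S.lt i)
  have t3 : |δ * (ap (S.F j ω) (S.Q ω') k - ap (S.F j ω) (S.Q ω) k)| ≤ q2 (S.lt i) * 2 := by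
    rw [abs_mul]
    exact mul_le_mul hδa t2 (abs_nonneg _) hq.le
  refine (abs_add_le _ _).trans ?_
  linarith

/-- bad event : digits of the translated position are not determined by the end -/
def Bad (o : Fin d → ℝ) (i j : ℕ) (ω : Ω) : Prop :=
  ∃ k, Nb (S.lt i - S.κ) (ap (S.F j ω) ((S.trn o).pos (S.lt i) ω) k) (3 * q2 (S.lt i))

theorem trn_pos (o : Fin d → ℝ) (a : ℕ) (ω : Ω) :
    (S.trn o).pos a ω = fun l => S.pos a ω l + o l := by
  funext l
  unfold Sy.pos Sy.trn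
  simp only
  ring

theorem trn_ps (o : Fin d → ℝ) {i j : ℕ} (hκ : S.κ ≤ S.lt i) (ω : Ω) (k : Fin d) :
    ⌊(S.trn o).ps i i j ω k / 2 ^ (S.trn o).κ⌋ =
      fl1 (S.lt i - S.κ) (ap (S.F j ω) ((S.trn o).pos (S.lt i) ω) k) := by
  rw [← dig hκ]
  rfl

/-- the end determines the translated position up to three units -/
theorem close' [Fintype Ω] {P : Law Ω} (hN : S.Nrm P) (hmp : S.m ≤ S.p) {n j0 h : ℕ}
    (hh : S.lt n + (S.p + d) * j0 + d ≤ h) {i j : ℕ} (hi : i ≤ n) (hj : j ≤ j0) {ω ω' : Ω}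
    (hω : 0 < P.w ω) (hω' : 0 < P.w ω') (hZ : S.Zh h ω' = S.Zh h ω) (hw : S.w j ω' = S.w j ω)
    (o : Fin d → ℝ) (k : Fin d) :
    |ap (S.F j ω') ((S.trn o).pos (S.lt i) ω') k - ap (S.F j ω) ((S.trn o).pos (S.lt i) ω) k| ≤
        3 * q2 (S.lt i) := by
  obtain ⟨_, hF, h3⟩ := close S hN hmp hh hi hj hω hω' hZ hw
  have := h3 k
  rw [trn_pos, trn_pos, ap_add, ap_add]
  rw [hF] at this ⊢
  rw [add_sub_add_right_eq_sub]
  exact this

/-- outside of `Bad i j` the cell is a function of the end and of the state -/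
theorem base_eq [Fintype Ω] {P : Law Ω} (hN : S.Nrm P) (hmp : S.m ≤ S.p) {n j0 h : ℕ}
    (hh : S.lt n + (S.p + d) * j0 + d ≤ h) (hκ : S.κ ≤ S.a0) {i j : ℕ} (hi : i ≤ n) (hj : j ≤ j0)
    {ω ω' : Ω} (hω : 0 < P.w ω) (hω' : 0 < P.w ω') (hZ : S.Zh h ω' = S.Zh h ω)
    (hA : S.A ω' = S.A ω) (hw : S.w j ω' = S.w j ω) (o : Fin d → ℝ) (hb : ¬ Bad S o i j ω) :
    (S.trn o).base i j ω' = (S.trn o).base i j ω := by
  have hκ' : S.κ ≤ S.lt i := by unfold Sy.lt; omega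
  obtain ⟨hT, hF, _⟩ := close S hN hmp hh hi hj hω hω' hZ hw
  unfold Bad at hb
  push Not at hb
  unfold Sy.base
  refine Prod.ext hA (Prod.ext hT (Prod.ext hw ?_))
  funext k
  show ⌊(S.trn o).ps i i j ω' k / 2 ^ (S.trn o).κ⌋ = ⌊(S.trn o).ps i i j ω k / 2 ^ (S.trn o).κ⌋
  rw [trn_ps S o hκ', trn_ps S o hκ']
  have h0 := q2_pos (S.lt i)
  exact Nb.eq (hb k) (close' S hN hmp hh hi hj hω hω' hZ hw o k)
    (by rw [sub_self, abs_zero]; linarith)

/-- the cells `J i j` -/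
theorem J_iff {i j : ℕ} {ω ω' : Ω} :
    S.J i j ω' = S.J i j ω ↔ ∀ i' ≤ i, ∀ j' ≤ j, S.base i' j' ω' = S.base i' j' ω := by
  constructor
  · intro h i' hi j' hj
    have := congrFun (congrFun h i') j'
    unfold Sy.J at this
    simp only [hi, hj, and_self, if_true] at this
    exact Option.some.inj this
  · intro h
    funext i' j'
    unfold Sy.J
    split_ifs with hc
    · rw [h i' hc.1 j' hc.2]
    · rfl

/-- **a generic translation** -/
theorem gen_bad [Fintype Ω] (P : Law Ω) (hwd : IsWd S.m S.p S.Q S.w) (hmp : S.m ≤ S.p)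
    (hκ : S.κ ≤ S.a0) (n j0 : ℕ) :
    ∃ o : Fin d → ℝ, (∀ l, 0 ≤ o l ∧ o l ≤ 1) ∧
      prE P (fun ω => ∃ i ≤ n, ∃ j ≤ j0, Bad S o i j ω) ≤
        (6 * d) * ((n + 1) * (j0 + 1)) / 2 ^ S.κ := by
  classical
  set B : ℤ := 2 ^ ((S.p + d) * j0) + 1 with hB
  have hB0 : 0 < B := by positivity
  set s : Finset (ℕ × ℕ × Fin d) := range (n + 1) ×ˢ (range (j0 + 1) ×ˢ univ) with hs
  have hcard : (s.card : ℝ) = (n + 1) * ((j0 + 1) * d) := by
    rw [hs, card_product, card_product, card_range, card_range, card_univ, Fintype.card_fin]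
    push_cast
    ring
  set f : ℕ × ℕ × Fin d → Ω → ℤ := fun x ω =>
    ∑ l, Mz S.m S.p (S.w x.2.1 ω) x.2.2 l * B ^ (l : ℕ) with hf
  have hsm : ∀ x ∈ s, x.1 ≤ n ∧ x.2.1 ≤ j0 := fun x hx => by
    rw [hs, mem_product, mem_product, mem_range, mem_range] at hx
    omega
  have hf0 : ∀ x ∈ s, ∀ ω, f x ω ≠ 0 := by
    intro x hx ω h0
    have hj := (hsm x hx).2
    have hbd : ∀ l, |Mz S.m S.p (S.w x.2.1 ω) x.2.2 l| < B := by
      intro l
      have h1 := fr_bound S.m S.p hmp (S.w x.2.1 ω) (wd_ok hwd _ ω) x.2.2 l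
      rw [wd_len hwd, Mz_eq] at h1
      have h2 : (2 : ℝ) ^ ((S.p + d) * x.2.1) ≤ 2 ^ ((S.p + d) * j0) :=
        pow_le_pow_right₀ one_le_two (Nat.mul_le_mul_left _ hj)
      have h3 := h1.trans h2
      have h4 : |Mz S.m S.p (S.w x.2.1 ω) x.2.2 l| ≤ 2 ^ ((S.p + d) * j0) := by exact_mod_cast h3
      rw [hB]
      linarith
    have h5 := base_inj hB0 _ hbd h0
    obtain ⟨l, hl⟩ := fr_row S.m S.p (S.w x.2.1 ω) x.2.2
    apply hl
    rw [Mz_eq, h5 l]
    norm_num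
  obtain ⟨ξ, hξ0, hξ1, hξ⟩ := gen_probZ P s (fun x _ => S.lt x.1 - S.κ)
    (fun x ω => ap (S.F x.2.1 ω) (S.pos (S.lt x.1) ω) x.2.2 - 3 * q2 (S.lt x.1))
    (fun x _ => 6 * q2 (S.lt x.1)) f hf0
    (fun x _ _ => by have := q2_pos (S.lt x.1); positivity)
  refine ⟨fun l => Int.fract ((B : ℝ) ^ (l : ℕ) * ξ),
    fun l => ⟨Int.fract_nonneg _, (Int.fract_lt_one _).le⟩, ?_⟩
  have hsum : ∑ x ∈ s, P.ex (fun _ : Ω => (2 : ℝ) ^ (S.lt x.1 - S.κ) * (6 * q2 (S.lt x.1))) =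
      s.card * (6 * q2 S.κ) := by
    rw [← nsmul_eq_mul, ← Finset.sum_const]
    refine Finset.sum_congr rfl fun x hx => ?_
    have : S.κ ≤ S.lt x.1 := by unfold Sy.lt; omega
    rw [P.ex_const, mul_left_comm, pow_q2 (k := S.κ) (by omega)]
  rw [hsum, hcard] at hξ
  refine le_trans (prE_mono' P fun ω _ hω => ?_) (hξ.trans (le_of_eq ?_))
  · obtain ⟨i, hi, j, hj, k, hb⟩ := hω
    refine ⟨(i, j, k), ?_, ?_⟩
    · rw [hs, mem_product, mem_product, mem_range, mem_range]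
      exact ⟨Nat.lt_succ_of_le hi, Nat.lt_succ_of_le hj, mem_univ _⟩
    · rw [trn_pos, ap_add] at hb
      have e : ap (S.F j ω) (fun l : Fin d => Int.fract ((B : ℝ) ^ (l : ℕ) * ξ)) k =
          (f (i, j, k) ω : ℝ) * ξ - ((∑ l, Mz S.m S.p (S.w j ω) k l * ⌊(B : ℝ) ^ (l : ℕ) * ξ⌋ : ℤ) : ℝ) := by
        unfold ap Sy.F
        rw [hf]
        simp only [Mz_eq]
        push_cast
        rw [Finset.sum_mul, ← Finset.sum_sub_distrib]
        refine Finset.sum_congr rfl fun l _ => ?_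
        have := Int.floor_add_fract ((B : ℝ) ^ (l : ℕ) * ξ)
        have e2 : Int.fract ((B : ℝ) ^ (l : ℕ) * ξ) = (B : ℝ) ^ (l : ℕ) * ξ - ⌊(B : ℝ) ^ (l : ℕ) * ξ⌋ := by
          linarith
        rw [e2]
        ring
      have hb' : Nb (S.lt i - S.κ) (ap (S.F j ω) (fun l => S.pos (S.lt i) ω l) k +
          ap (S.F j ω) (fun l : Fin d => Int.fract ((B : ℝ) ^ (l : ℕ) * ξ)) k) (3 * q2 (S.lt i)) := hb
      rw [e, ← add_sub_assoc] at hb'
      obtain ⟨y, h1, h2, h3⟩ := Nb_shift _ hb'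
      have e3 : ap (S.F j ω) (fun l => S.pos (S.lt i) ω l) k = ap (S.F j ω) (S.pos (S.lt i) ω) k := rfl
      rw [e3] at h1 h2 h3
      have e4 : ap (S.F j ω) (S.pos (S.lt i) ω) k + (f (i, j, k) ω : ℝ) * ξ - 3 * q2 (S.lt i) =
          ap (S.F j ω) (S.pos (S.lt i) ω) k - 3 * q2 (S.lt i) + (f (i, j, k) ω : ℝ) * ξ := by ring
      rw [e4] at h1 h3
      refine ⟨y, h1, ?_, h3⟩
      show y ≤ ap (S.F j ω) (S.pos (S.lt i) ω) k - 3 * q2 (S.lt i) + (f (i, j, k) ω : ℝ) * ξ +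
        6 * q2 (S.lt i)
      linarith
  · rw [show q2 S.κ = 1 / 2 ^ S.κ by unfold q2; rw [one_div, inv_pow, one_div]]
    ring

/-- outside of the bad event all cells are functions of the end, the side variable and the state -/
theorem J_eq [Fintype Ω] {P : Law Ω} (hN : S.Nrm P) (hmp : S.m ≤ S.p) {n j0 h : ℕ}
    (hh : S.lt n + (S.p + d) * j0 + d ≤ h) (hκ : S.κ ≤ S.a0) {i j : ℕ} (hi : i ≤ n) (hj : j ≤ j0)
    (o : Fin d → ℝ) {ω ω' : Ω} (hω : 0 < P.w ω) (hω' : 0 < P.w ω')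
    (hY : ((S.Zh h ω', S.A ω'), S.w j ω') = ((S.Zh h ω, S.A ω), S.w j ω))
    (hE : ¬ ∃ i ≤ n, ∃ j ≤ j0, Bad S o i j ω) : (S.trn o).J i j ω' = (S.trn o).J i j ω := by
  simp only [Prod.mk.injEq] at hY
  obtain ⟨⟨hZ, hA⟩, hw⟩ := hY
  push Not at hE
  refine (J_iff (S.trn o)).2 fun i' hi' j' hj' => ?_
  have hw' : S.w j' ω' = S.w j' ω := wd_pred hN.wd hj' hw
  exact base_eq S hN hmp hh hκ (hi'.trans hi) (hj'.trans hj) hω hω' hZ hA hw' o
    (hE i' (hi'.trans hi) j' (hj'.trans hj))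

open Classical in
/-- given the end there are few cells -/
theorem J_count [Fintype Ω] {P : Law Ω} (hN : S.Nrm P) (hmp : S.m ≤ S.p) {n j0 h : ℕ}
    (hh : S.lt n + (S.p + d) * j0 + d ≤ h) (hκ : S.κ ≤ S.a0) {i j : ℕ} (hi : i ≤ n) (hj : j ≤ j0)
    (o : Fin d → ℝ) {ω : Ω} (hω : 0 < P.w ω) :
    ∃ F : Finset (ℕ → ℕ → Option (α × ℤ × Sta d × (Fin d → ℤ))),
      F.card ≤ 9 ^ (d * ((n + 1) * (j0 + 1))) ∧
      ∀ ω', 0 < P.w ω' → ((S.Zh h ω', S.A ω'), S.w j ω') = ((S.Zh h ω, S.A ω), S.w j ω) →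
        (S.trn o).J i j ω' ∈ F := by
  set D : ℕ → ℕ → Fin d → ℤ := fun i' j' k =>
    fl1 (S.lt i' - S.κ) (ap (S.F j' ω) ((S.trn o).pos (S.lt i') ω) k) with hD
  refine ⟨(Fintype.piFinset fun x : Fin (i + 1) × Fin (j + 1) =>
    ({S.A ω} : Finset α) ×ˢ ({S.T x.1 ω} : Finset ℤ) ×ˢ ({S.w x.2 ω} : Finset (Sta d)) ×ˢ
      (Fintype.piFinset fun k : Fin d => Finset.Icc (D x.1 x.2 k - 4) (D x.1 x.2 k + 4))).image
    (fun g i' j' => if hc : i' ≤ i ∧ j' ≤ j then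
      some (g (⟨i', Nat.lt_succ_of_le hc.1⟩, ⟨j', Nat.lt_succ_of_le hc.2⟩)) else none), ?_, ?_⟩
  · refine Finset.card_image_le.trans ?_
    rw [Fintype.card_piFinset]
    have h1 : ∀ x : Fin (i + 1) × Fin (j + 1), (({S.A ω} : Finset α) ×ˢ
        ({S.T x.1 ω} : Finset ℤ) ×ˢ ({S.w x.2 ω} : Finset (Sta d)) ×ˢ
        (Fintype.piFinset fun k : Fin d =>
          Finset.Icc (D x.1 x.2 k - 4) (D x.1 x.2 k + 4))).card = 9 ^ d := by
      intro x
      rw [card_product, card_product, card_product, card_singleton, card_singleton,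
        card_singleton, Fintype.card_piFinset]
      have h2 : ∀ k : Fin d, (Finset.Icc (D x.1 x.2 k - 4) (D x.1 x.2 k + 4)).card = 9 := by
        intro k
        rw [Int.card_Icc]
        omega
      simp only [h2, Finset.prod_const, Finset.card_univ, Fintype.card_fin, one_mul]
    simp only [h1, Finset.prod_const, Finset.card_univ, Fintype.card_prod, Fintype.card_fin]
    rw [← pow_mul]
    refine Nat.pow_le_pow_right (by norm_num) (Nat.mul_le_mul_left _ ?_)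
    exact Nat.mul_le_mul (by omega) (by omega)
  · intro ω' hω' hY
    simp only [Prod.mk.injEq] at hY
    obtain ⟨⟨hZ, hA⟩, hw⟩ := hY
    rw [Finset.mem_image]
    refine ⟨fun x => (S.trn o).base x.1 x.2 ω', ?_, ?_⟩
    · rw [Fintype.mem_piFinset]
      intro x
      have hi' : (x.1 : ℕ) ≤ i := Nat.lt_succ_iff.1 x.1.2
      have hj' : (x.2 : ℕ) ≤ j := Nat.lt_succ_iff.1 x.2.2
      have hw' : S.w x.2 ω' = S.w x.2 ω := wd_pred hN.wd hj' hw
      have hκ' : S.κ ≤ S.lt x.1 := by unfold Sy.lt; omega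
      obtain ⟨hT, hF, _⟩ := close S hN hmp hh (hi'.trans hi) (hj'.trans hj) hω hω' hZ hw'
      simp only [mem_product, mem_singleton, Fintype.mem_piFinset, mem_Icc]
      refine ⟨hA, hT, hw', fun k => ?_⟩
      have h3 := close' S hN hmp hh (hi'.trans hi) (hj'.trans hj) hω hω' hZ hw' o k
      have h4 : |ap (S.F x.2 ω') ((S.trn o).pos (S.lt x.1) ω') k -
          ap (S.F x.2 ω) ((S.trn o).pos (S.lt x.1) ω) k| * 2 ^ (S.lt x.1 - S.κ) ≤ ((3 : ℕ) : ℝ) := by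
        have h5 : (2 : ℝ) ^ (S.lt x.1 - S.κ) ≤ 2 ^ S.lt x.1 :=
          pow_le_pow_right₀ one_le_two (Nat.sub_le _ _)
        have h6 := q2_mul_pow (S.lt x.1)
        calc _ ≤ 3 * q2 (S.lt x.1) * 2 ^ S.lt x.1 := by
              have := (q2_pos (S.lt x.1)).le
              gcongr
          _ = 3 * (2 ^ S.lt x.1 * q2 (S.lt x.1)) := by ring
          _ = _ := by rw [h6]; norm_num
      have h7 := Vale.Agent.P127.U.H172.fl1_near' h4
      have h8 : ((S.trn o).base x.1 x.2 ω').2.2.2 k =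
          fl1 (S.lt x.1 - S.κ) (ap (S.F x.2 ω') ((S.trn o).pos (S.lt x.1) ω') k) :=
        trn_ps S o hκ' ω' k
      rw [h8]
      rw [abs_le] at h7
      simp only [hD]
      push_cast at h7
      constructor <;> linarith
    · funext i' j'
      unfold Sy.J
      split_ifs <;> rfl

end main

/-- **[END]** -/
theorem pEnd (d : ℕ) : PEnd d := by
  classical
  refine ⟨18 * d ^ 2 + 6 * d + 3, ?_⟩
  intro Ω _ α P S n j0 h hN hm hmp hκ hh
  have hκ' : S.κ ≤ S.a0 := by omega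
  have hh' : S.lt n + (S.p + d) * j0 + d ≤ h := by
    have e : (j0 + 1) * (S.p + (18 * d ^ 2 + 6 * d + 3)) =
      (S.p + d) * j0 + d + (j0 * (18 * d ^ 2 + 5 * d + 3) + S.p + 18 * d ^ 2 + 5 * d + 3) := by ring
    rw [e] at hh
    omega
  obtain ⟨o, ho, hbad⟩ := gen_bad S P hN.wd hmp hκ' n j0
  have hd0 : (0 : ℝ) ≤ d := Nat.cast_nonneg d
  have hn0 : (1 : ℝ) ≤ ((n : ℝ) + 1) * (j0 + 1) := by
    have h1 : (0 : ℝ) ≤ n := Nat.cast_nonneg n
    have h2 : (0 : ℝ) ≤ j0 := Nat.cast_nonneg j0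
    nlinarith
  refine ⟨o, ho, fun i hi j hj => ⟨?_, ?_⟩⟩
  · refine ⟨fun y => if hy : ∃ ω, 0 < P.w ω ∧ (¬ ∃ i ≤ n, ∃ j ≤ j0, Bad S o i j ω) ∧
      ((S.Zh h ω, S.A ω), S.w j ω) = y then (S.trn o).J i j hy.choose else fun _ _ => none, ?_⟩
    refine (prE_mono' P (E' := fun ω => ∃ i ≤ n, ∃ j ≤ j0, Bad S o i j ω)
      fun ω hω hne => ?_).trans (hbad.trans ?_)
    · by_contra hE
      apply hne
      beta_reduce
      have hy : ∃ ω', 0 < P.w ω' ∧ (¬ ∃ i ≤ n, ∃ j ≤ j0, Bad S o i j ω') ∧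
        ((S.Zh h ω', S.A ω'), S.w j ω') = ((S.Zh h ω, S.A ω), S.w j ω) := ⟨ω, hω, hE, rfl⟩
      rw [dif_pos hy]
      obtain ⟨h1, _, h3⟩ := hy.choose_spec
      exact (J_eq S hN hmp hh' hκ' hi hj o hω h1 h3 hE).symm
    · push_cast
      gcongr
      nlinarith [sq_nonneg (d : ℝ)]
  · intro hc
    have h1 := Vale.Agent.P127.U.H172.hc_exc P (fun ω => ∃ i ≤ n, ∃ j ≤ j0, Bad S o i j ω) ((S.trn o).J i j)
      (fun ω => ((S.Zh h ω, S.A ω), S.w j ω)) (9 ^ (d * ((n + 1) * (j0 + 1))))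
      (fun ω hω => by
        obtain ⟨F, hF, hF'⟩ := J_count S hN hmp hh' hκ' hi hj o hω
        exact ⟨F, hF, fun ω' hω' e => hF' ω' hω' e⟩)
      (fun ω hω hE ω' hω' _ e => J_eq S hN hmp hh' hκ' hi hj o hω hω' e hE)
    refine h1.trans ?_
    have hl2 : Real.log 2 ≤ 1 := by
      have := Real.log_two_lt_d9
      linarith
    have hl9 : Real.log 9 ≤ 3 := by
      rw [show (9 : ℝ) = 3 ^ 2 by norm_num, Real.log_pow]
      have h3 : Real.log 3 ≤ 3 / 2 := by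
        rw [Real.log_le_iff_le_exp (by norm_num)]
        have h4 : (3 : ℝ) ≤ (1 + 3 / 2 / 2) ^ 2 := by norm_num
        have h5 := Real.add_one_le_exp (3 / 4 : ℝ)
        calc (3 : ℝ) ≤ (3 / 4 + 1) ^ 2 := by norm_num
          _ ≤ (Real.exp (3 / 4)) ^ 2 := by gcongr
          _ = Real.exp (3 / 2) := by rw [← Real.exp_nat_mul]; norm_num
      push_cast
      linarith
    have hl : Real.log ((9 ^ (d * ((n + 1) * (j0 + 1))) : ℕ) : ℝ) ≤
        d * (((n : ℝ) + 1) * (j0 + 1)) * 3 := by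
      push_cast
      rw [Real.log_pow]
      push_cast
      gcongr
    have hp0 := prE_nonneg P (fun ω => ∃ i ≤ n, ∃ j ≤ j0, Bad S o i j ω)
    set M : ℝ := ((n : ℝ) + 1) * (j0 + 1) with hM
    have hpow : (0 : ℝ) < 2 ^ S.κ := by positivity
    push_cast at hc
    have h6 : prE P (fun ω => ∃ i ≤ n, ∃ j ≤ j0, Bad S o i j ω) *
        Real.log ((9 ^ (d * ((n + 1) * (j0 + 1))) : ℕ) : ℝ) ≤ 6 * d * M / 2 ^ S.κ * (d * M * 3) :=
      mul_le_mul hbad hl (Real.log_natCast_nonneg _) (by positivity)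
    have h7 : 6 * d * M / 2 ^ S.κ * (d * M * 3) ≤ 1 := by
      rw [div_mul_eq_mul_div, div_le_one hpow]
      refine le_trans ?_ hc
      have : 0 ≤ M ^ 2 := sq_nonneg M
      nlinarith [mul_nonneg hd0 this]
    push_cast
    push_cast at h6
    nlinarith [sq_nonneg (d : ℝ)]

end Vale.Agent.P106.U.EndA.H996
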